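import Vale.Agent.P178.MathlibUsed

/-!
Places, tame symbols, and the residue maps of the Gersten complex.
-/

universe u

noncomputable section

namespace Vale.Agent.P178.Gersten

section field

variable {K F : Type u} [Field K] [Field F]

open Classical in
/-- A nonzero element of a field, as a unit. -/
def toUnit (x : K) : Kˣ := if h : x = 0 then 1 else Units.mk0 x h

/-- The degree of a field extension `φ`. -/
def degree (φ : K →+* F) : ℕ := @Module.finrank K F _ _ φ.toAlgebra.toModule

/-- The norm of a field extension `φ`. -/
def norm (φ : K →+* F) (x : F) : K := @Algebra.norm K F _ _ φ.toAlgebra x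

/-- The residue field of a valuation ring `V` of `K`. -/
def ResField (V : ValuationSubring K) : Type u := IsLocalRing.ResidueField V

instance instFieldResField (V : ValuationSubring K) : Field (ResField V) :=
  IsLocalRing.ResidueField.field V

open Classical in
/-- The residue class of an element of `V` (and `0` for the other elements of `K`). -/
def res (V : ValuationSubring K) (a : K) : ResField V :=
  if h : a ∈ V then IsLocalRing.residue V ⟨a, h⟩ else 0

/-- The normalized valuation of a discrete valuation ring `V` of `K`. -/
def ord (V : ValuationSubring K) [IsDiscreteValuationRing V] (a : K) : ℤ :=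
  WithZero.log (Ring.ordFrac V a)

/-- The tame symbol. -/
def tame (V : ValuationSubring K) [IsDiscreteValuationRing V] (a b : K) : ResField V :=
  res V ((-1) ^ (ord V a * ord V b) * a ^ ord V b / b ^ ord V a)

end field

/-- A place of the field `K` over the field `k` (both with a map from `A`): a discrete
valuation ring of `K` containing the image of `A`, with a map from `k` to its residue field
which is compatible with the maps from `A`. -/
structure Place {A K k : Type u} [CommRing A] [Field K] [Field k] (f : A →+* K)
    (g : A →+* k) where
  V : ValuationSubring K
  dvr : IsDiscreteValuationRing V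
  mem : ∀ x : A, f x ∈ V
  map : k →+* ResField V
  map_eq : ∀ x : A, map (g x) = res V (f x)

section residue

variable {A K k : Type u} [CommRing A] [Field K] [Field k] {f : A →+* K} {g : A →+* k}

/-- The valuation times the residue degree. -/
def Place.order (v : Place f g) (a : K) : ℤ :=
  haveI := v.dvr
  ord v.V a * degree v.map

/-- The norm of the tame symbol. -/
def Place.symbol (v : Place f g) (a b : K) : k :=
  haveI := v.dvr
  norm v.map (tame v.V a b)

end residue

section ring

variable {A : Type u} [CommRing A]

/-- The residue field of `A` at the prime `P`, as the fraction field of `A / P`. -/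
def kappa (P : PrimeSpectrum A) : Type u := FractionRing (A ⧸ P.asIdeal)

instance instFieldKappa (P : PrimeSpectrum A) : Field (kappa P) :=
  FractionRing.field (A ⧸ P.asIdeal)

/-- The map from `A` to the residue field. -/
def toKappa (P : PrimeSpectrum A) : A →+* kappa P :=
  algebraMap A (FractionRing (A ⧸ P.asIdeal))

/-- The multiplicative group of the residue field of `A` at `P`. -/
def K₁ (P : PrimeSpectrum A) : Type u := (kappa P)ˣ

instance instCommGroupK₁ (P : PrimeSpectrum A) : CommGroup (K₁ P) :=
  Units.instCommGroupUnits (α := kappa P)

/-- The residue map `K₁(κ(Q)) → K₀(κ(P))`: the sum over the places of the valuation times the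
residue degree. -/
def bd₁ (Q P : PrimeSpectrum A) (a : K₁ Q) : ℤ :=
  ∑ᶠ v : Place (toKappa Q) (toKappa P), v.order a.val

/-- The residue map `K₂(κ(Q)) → K₁(κ(P))` on symbols: the product over the places of the norm
of the tame symbol. -/
def bd₂ (Q P : PrimeSpectrum A) (a b : K₁ Q) : K₁ P :=
  toUnit (∏ᶠ v : Place (toKappa Q) (toKappa P), v.symbol a.val b.val)

end ring

/-- The primes of height `h`. -/
structure Pt (A : Type u) [CommRing A] (h : ℕ) where
  P : PrimeSpectrum A
  height : P.asIdeal.height = h

end Vale.Agent.P178.Gersten
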