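import Mathlib.Algebra.GroupWithZero.Submonoid.CancelMulZero
import Mathlib.Algebra.Module.StablyFree.Basic
import Mathlib.Algebra.MvPolynomial.Comap
import Mathlib.Algebra.MvPolynomial.Funext
import Mathlib.Computability.Reduce
import Mathlib.Data.Finsupp.Interval
import Mathlib.LinearAlgebra.Matrix.ZPow
import Mathlib.Order.CompletePartialOrder
import Mathlib.RingTheory.DedekindDomain.PID
import Mathlib.RingTheory.Flat.TorsionFree
import Mathlib.RingTheory.Henselian
import Mathlib.RingTheory.LocalProperties.Reduced
import Mathlib.RingTheory.LocalRing.Quotient
import Mathlib.RingTheory.Localization.NormTrace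
import Mathlib.RingTheory.MvPolynomial.IrreducibleQuadratic
import Mathlib.RingTheory.OrderOfVanishing.Noetherian
import Mathlib.RingTheory.PicardGroup
import Mathlib.RingTheory.QuasiFinite.Basic
import Mathlib.RingTheory.RegularLocalRing.Polynomial
import Mathlib.RingTheory.SimpleRing.Principal
import Mathlib.RingTheory.TotallySplit
import Mathlib.RingTheory.Valuation.LocalSubring
import Mathlib.Tactic
import Mathlib.Topology.Algebra.Module.ClosedSubmodule

/-! The part of Mathlib that the development of this folder uses. -/
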